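import Vale.Agent.P151.KN.Defs

set_option autoImplicit false

namespace Vale.Agent.P151.KN

/-- The cluster of `x`: the vertices joined to `x` by open edges. -/
def cluster {V E : Type} (inc : E → Set V) (ω : Finset E) (x : V) : Set V :=
  {y | Relation.ReflTransGen (fun a b => ∃ e ∈ ω, a ∈ inc e ∧ b ∈ inc e) x y}

/-- The event that the cluster of `x` meets `A`. -/
def Meets {V E : Type} (inc : E → Set V) (A : Finset V) (x : V) (ω : Finset E) : Prop :=
  ∃ a ∈ A, a ∈ cluster inc ω x

end Vale.Agent.P151.KN
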