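import Vale.Agent.P151.MathlibUsed

/-!
# Percolation on finite (hyper)graphs: definitions

`E` is the finite type of (hyper)edges, `inc e : Set V` the set of vertices of `e`; a
configuration is the finite set `ω : Finset E` of open edges; `p e` is the probability that `e`
is open, all edges being independent.
-/

set_option autoImplicit false

namespace Vale.Agent.P151.KN

/-- The weight of a configuration. -/
noncomputable def wt {E : Type} [Fintype E] [DecidableEq E] (p : E → ℝ) (ω : Finset E) : ℝ :=
  ∏ e, if e ∈ ω then p e else 1 - p e

/-- The expectation of `f`. -/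
noncomputable def Ex {E : Type} [Fintype E] [DecidableEq E] (p : E → ℝ) (f : Finset E → ℝ) : ℝ :=
  ∑ ω : Finset E, wt p ω * f ω

/-- The vertices joined to `S \ K` by open edges which do not meet `K`. -/
def cl {V E : Type} (inc : E → Set V) (ω : Finset E) (K S : Set V) : Set V :=
  {v | ∃ s ∈ S, s ∉ K ∧
    Relation.ReflTransGen (fun a b => ∃ e ∈ ω, Disjoint (inc e) K ∧ a ∈ inc e ∧ b ∈ inc e) s v}

end Vale.Agent.P151.KN
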